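import Vale.Agent.P281Z.Ld.G
import Vale.Agent.P277Z.Van.Vol

/-!
# P281Z, block LD: the strata exist (LAD)
-/

open scoped Manifold ContDiff Topology ComplexOrder
open Set Filter Function MeasureTheory
open Vale.Agent.P272.K Vale.Agent.P285.H281.FD Vale.Agent.P284.H608.K Vale.Agent.P281Z.Ha
open Vale.Agent.P277Z (Hol at_chart)
open Vale.Agent.P277Z.Slc (Ind LEq Snc)
open Vale.Agent.P277Z.Van (IsVol)
open Vale.Agent.P277.HD (pull)

set_option linter.unusedSectionVars false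

noncomputable section

namespace Vale.Agent.P281Z.Ld

open Vale.Agent.P281Z.Lg

section mf

variable {n d : ℕ} {X Z : Type} [TopologicalSpace X] [ChartedSpace (Cm n) X] [TopologicalSpace Z]
  [ChartedSpace (Cm d) Z] {i : Z → X}

theorem mf_of (h : ∀ c ∈ atlas (Cm d) Z, ImC n i c) : IsManifold 𝓘(ℂ, Cm d) ω Z := by
  refine isManifold_of_contDiffOn 𝓘(ℂ, Cm d) ω Z fun c c' hc hc' z hz => ?_
  have hz' : z ∈ (c.symm ≫ₕ c').source := by simpa using hz.1
  have h1 : z ∈ c.target := hz'.1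
  have h2 : c.symm z ∈ c'.source := hz'.2
  have hA := at_chart (n := n) (i (c.symm z))
  have h3 := h c' hc' _ (c'.map_source h2) (chartAt (Cm n) (i (c.symm z)))
    (by rw [c'.left_inv h2]; exact hA)
  refine (an_of_comp (τ := fun z => c' (c.symm z)) h3.1 h3.2 (h c hc z h1 _ hA).1
    ((c'.continuousAt h2).comp (c.continuousAt_symm h1)) ?_).contDiffWithinAt
  filter_upwards [(c.continuousAt_symm h1).eventually (c'.open_source.mem_nhds h2)] with y hy
  rw [c'.left_inv hy]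

theorem imm_of (h : ∀ c ∈ atlas (Cm d) Z, ImC n i c) (z : Z) : Imm d n i z := fun c e hc he =>
  (h c hc.1 _ hc.mem_target e (hc.left_inv.symm ▸ he)).2

variable [IsManifold 𝓘(ℂ, Cm n) ω X] [IsManifold 𝓘(ℂ, Cm d) ω Z]

theorem hol_of (hi : Continuous i) (h : ∀ c ∈ atlas (Cm d) Z, ImC n i c) : HolM d n i := by
  intro z
  have hz := at_chart (n := d) z
  have he := at_chart (n := n) (i z)
  exact HolA.of_an hi.continuousAt hz he
    (h _ hz.1 _ hz.mem_target _ (hz.left_inv.symm ▸ he)).1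

theorem comp_near (hi : HolM d n i) {c : Chart d Z} {e : Chart n X} {z : Z} (hc : At c z)
    (he : At e (i z)) (u : X → ℝ) : (fun v => u (i (c.symm v))) =ᶠ[𝓝 (c z)]
      fun v => (fun w => u (e.symm w)) (e (i (c.symm v))) :=
  (at_map hi.cont.continuousAt hc he).mono fun v hv => by simp only [hv.left_inv]

theorem met_pull (hi : HolM d n i) {L : Bd X} {ψ : L.ι → X → ℝ} (h : IsMet n L ψ) :
    IsMet d (pull i L) fun a z => ψ a (i z) where
  smooth a c z hc ha := by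
    have he := at_chart (n := n) (i z)
    refine (ContDiffAt.comp (c z) (g := fun w => ψ a ((chartAt (Cm n) (i z)).symm w)) ?_
      ((((hi.at z).an hc he).contDiffAt.restrict_scalars ℝ).of_le le_top)).congr_of_eventuallyEq
      (comp_near hi hc he (ψ a))
    rw [hc.left_inv]
    exact h.smooth a _ _ he ha
  change a b z := h.change a b (i z)

theorem hess_pull (hi : HolM d n i) {c : Chart d Z} {e : Chart n X} {z : Z} (hc : At c z)
    (he : At e (i z)) {u : X → ℝ} (hu : ContDiffAt ℝ 2 (fun w => u (e.symm w)) (e (i z))) :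
    ∃ J : Matrix (Fin n) (Fin d) ℂ, cHess (fun v => u (i (c.symm v))) (c z) =
      J.transpose * cHess (fun w => u (e.symm w)) (e (i z)) * J.map (starRingEnd ℂ) := by
  have h1 := P299.H956.cHess_compR (f := fun w => u (e.symm w)) (τ := fun v => e (i (c.symm v)))
    (z := c z) (by rw [hc.left_inv]; exact hu) ((hi.at z).an hc he).contDiffAt
  rw [hc.left_inv] at h1
  exact ⟨_, (cHess_congr (comp_near hi hc he u)).trans h1⟩

end mf

/-- the data of the engine on a manifold -/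
structure Kd {m : ℕ} (M : Mf m) (I : Type) (e : I → Chart m M.X) (L : Bd M.X)
    (ψ : L.ι → M.X → ℝ) (a : I → L.ι) : Prop where
  atl : ∀ i, e i ∈ atlas (Cm m) M.X
  cover : ∀ x, ∃ i, x ∈ (e i).source
  kah : M.Kah
  lb : IsLB m L
  met : IsMet m L ψ
  sub : ∀ i, (e i).source ⊆ L.U (a i)

theorem tgt {m : ℕ} {X : Type} [TopologicalSpace X] {e : Chart m X} {z : Cm m} {P : Cm m → Prop}
    (hz : z ∈ e.target) (hP : P (e (e.symm z))) : P z := e.right_inv hz ▸ hP

/-- the engine on a manifold -/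
def Kd.ka {m : ℕ} {M : Mf m} {I : Type} {e : I → Chart m M.X} {L : Bd M.X} {ψ : L.ι → M.X → ℝ}
    {a : I → L.ι} (T : Kd M I e L ψ a) : KA m M.X where
  I := I
  e := e
  w i := T.kah.choose (e i)
  φ i z := ψ (a i) ((e i).symm z)
  a i j z := L.g (a i) (a j) ((e i).symm z)
  μ := (P277Z.Van.exists_isVol T.kah.choose_spec.toIsHermitian).choose
  cover := T.cover
  wsm i z hz j k := tgt hz (T.kah.choose_spec.smooth _ _ (At.of_target (T.atl i) hz) j k)
  wpos i z hz := tgt (P := fun z => (T.kah.choose (e i) z).PosDef) hz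
    (T.kah.choose_spec.posDef _ _ (At.of_target (T.atl i) hz))
  wcl i z hz j k l := tgt (P := fun z => dz l _ z = dz j _ z) hz
    (T.kah.choose_spec.closed _ _ (At.of_target (T.atl i) hz) j k l)
  φsm i z hz := tgt hz (T.met.smooth _ _ _ (At.of_target (T.atl i) hz)
    (T.sub i ((e i).map_target hz)))
  hol i j z hz h := tgt hz (transition (At.of_target (T.atl i) hz) ⟨T.atl j, h⟩).analyticAt
  wch i j x hi hj := T.kah.choose_spec.change _ _ _ ⟨T.atl i, hi⟩ ⟨T.atl j, hj⟩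
  ahol i j z hz h := tgt hz (T.lb.holo _ _ _ _ (At.of_target (T.atl i) hz)
    (T.sub i ((e i).map_target hz)) (T.sub j h)).analyticAt
  coc i j k x hi hj hk := by
    rw [(e i).left_inv hi, (e j).left_inv hj]
    exact (T.lb.cocycle _ _ _ x (T.sub i hi) (T.sub j hj) (T.sub k hk)).symm
  aself i x hi := by
    have h := T.sub i hi
    rw [(e i).left_inv hi]
    exact mul_left_cancel₀ (T.lb.ne_zero _ _ x h h)
      ((T.lb.cocycle _ _ _ x h h h).trans (mul_one _).symm)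
  φch i j x hi hj := by
    have h2 := norm_pos_iff.2 (T.lb.ne_zero _ _ x (T.sub i hi) (T.sub j hj))
    rw [(e i).left_inv hi, (e j).left_inv hj, T.met.change _ _ x (T.sub i hi) (T.sub j hj),
      neg_add, Real.exp_add, Real.exp_neg (Real.log _), Real.exp_log (by positivity)]
    field_simp
  hμ i := (P277Z.Van.exists_isVol T.kah.choose_spec.toIsHermitian).choose_spec _ (T.atl i)

variable {n m : ℕ} {V : Mf n} {κ : Type} {D : κ → Set V.X} {F : Bd V.X} {B : Type}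
  {ac : B → Ac V D F}

theorem ex_sl (A : Ac V D F) {y : Sr D n m} (h : y.pt ∈ A.ch.source) :
    (∃ s : Sl A m, y ∈ s.ch.source) ∧ ∀ j : Fin m → Fin n, Injective j →
      (∀ k, ∀ l ∈ y.lab, A.la l ≠ some (j k)) → ∃ s : Sl A m, y ∈ s.ch.source ∧ s.θ = j := by
  obtain ⟨⟨θ, h1⟩, h2⟩ := exists_en A.inj
    (fun l hl => ((A.eqn l _ h).1 (y.mem l hl)).imp fun _ k => k.1) y.card
  exact ⟨⟨⟨y.lab, θ, h1, y.card⟩, rfl, h⟩,
    fun j a b => ⟨⟨y.lab, j, h2 j a b, y.card⟩, ⟨rfl, h⟩, rfl⟩⟩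

variable (ac) in
/-- the charts of the strata -/
abbrev Ix (m : ℕ) : Type := Σ β, Sl (ac β) m

variable (hc : ∀ x, ∃ β, x ∈ (ac β).ch.source)
include hc

theorem cov (y : Sr D n m) : ∃ c : Ix ac m, y ∈ c.2.ch.source :=
  let ⟨β, h⟩ := hc y.pt
  let ⟨s, k⟩ := (ex_sl _ h).1
  ⟨⟨β, s⟩, k⟩

theorem leqs (l : κ) (x : V.X) : ∃ ζ, LEq n (D l) x ζ :=
  let ⟨_, h⟩ := hc x
  ⟨_, zl_leq h l⟩

theorem dns (l : κ) : Dense (D l)ᶜ := P277Z.Slc.Dv.dense_compl (leqs hc l)

/-- the complex structure -/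
@[reducible] def cs (m : ℕ) : ChartedSpace (Cm m) (Sr D n m) where
  atlas := range fun c : Ix ac m => c.2.ch
  chartAt y := (cov hc y).choose.2.ch
  mem_chart_source y := (cov hc y).choose_spec
  chart_mem_atlas _ := ⟨_, rfl⟩

theorem cs_imC (m : ℕ) : ∀ c ∈ @atlas (Cm m) _ (Sr D n m) _ (cs hc m), ImC n Sr.pt c := by
  rintro _ ⟨c, rfl⟩
  exact c.2.imC

variable [Fintype κ]

/-- the strata of dimension `m` -/
def ym (m : ℕ) : Mf m :=
  { X := Sr D n m, cpt := Sr.cpt fun l => P277Z.Slc.isClosed_of_leq (leqs hc l), ch := cs hc m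
    mf := @mf_of n m _ _ _ _ _ (cs hc m) _ (cs_imC hc m) }

/-- the map of the strata -/
def yp (m : ℕ) : (ym hc m).X → V.X := Sr.pt

theorem ym_hol (m : ℕ) : HolM m n (yp hc m) :=
  @hol_of n m _ _ _ _ (ym hc m).top (ym hc m).ch _ _ (ym hc m).mf Sr.cont (cs_imC hc m)

theorem ym_imm (m : ℕ) (y : (ym hc m).X) : Imm m n (yp hc m) y :=
  @imm_of n m _ _ _ _ (ym hc m).top (ym hc m).ch _ (cs_imC hc m) y

variable {ψ : F.ι → V.X → ℝ} (hF : IsLB n F) (hK : V.Kah) (hψ : IsMet n F ψ)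
include hF hK hψ

theorem kd (m : ℕ) : Kd (ym hc m) (Ix ac m) (fun c => c.2.ch) (pull (yp hc m) F)
    (fun a y => ψ a (yp hc m y)) fun c => (ac c.1).fr :=
  ⟨fun c => ⟨c, rfl⟩, cov hc, kim _ _ _ _ _ (ym_hol hc m) (ym_imm hc m) hK, (ym_hol hc m).lb hF,
    met_pull (ym_hol hc m) hψ, fun c _ h => (ac c.1).sub h.2⟩

variable [LinearOrder κ]

/-- the system of the strata -/
@[reducible] def lad : Lad κ V.X n where
  Y := ym hc
  K m := (kd hc hF hK hψ m).ka
  B := B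
  U β := (ac β).ch.source
  G β β' := gg (ac β) (ac β')
  pt := yp hc _
  lab := Sr.lab
  up y _ h := y.up h
  bs c := c.1
  co c := c.2.co
  ε c := sgn (ac c.1).la c.2.J c.2.θ
  sl c _ _ h := ⟨c.1, c.2.sl h⟩
  atl _ _ := Iff.rfl
  self _ _ h := gg_self (dns hc) hF h
  coc _ _ _ _ := gg_mul (dns hc) hF
  opn _ β := (ac β).ch.open_source.preimage Sr.cont
  mem _ _ _ h := h.2
  hol m c β β' z hz h h' := tgt hz (((ym_hol hc m).at _).hol (gg_hol (dns hc) hF h h') c.2.ch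
    (At.of_target ((kd hc hF hK hψ m).atl c) hz))
  rel m c c' y h h' := by
    have := gg_rel (dns hc) c.2 c'.2 h h'
    rw [← c.2.ch.left_inv h] at this
    rw [c.2.ch.left_inv h] at this
    change _ * (F.g _ _ (c.2.ch.symm (c.2.ch y)).pt * _) = _
    rw [c.2.ch.left_inv h]
    exact this
  eps _ _ := sgn_sq _ _ _
  inj _ c l l' _ h h' := (ac c.1).inj l l' _ (c.2.co_iff.1 h) (c.2.co_iff.1 h')
  card _ y := y.card
  up_pt _ _ _ _ := rfl
  up_lab _ _ _ _ := rfl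
  sl_bs _ _ _ _ _ := rfl
  sl_tg _ c _ k _ := Set.ext fun v => by
    change ex (fun a => c.2.θ (k.succAbove a)) v ∈ (ac c.1).ch.target ↔
      ex c.2.θ (ins k v) ∈ (ac c.1).ch.target
    rw [ex_ins c.2.en.inj]
  sl_src _ c i k h y := by
    have hi : i ∉ c.2.J := fun e => c.2.en.ne e k (c.2.co_iff.1 h)
    change (y.lab = insert i c.2.J ∧ _) ↔ ∃ _ : i ∈ y.lab, y.lab.erase i = c.2.J ∧ _
    exact ⟨fun a => ⟨a.1 ▸ Finset.mem_insert_self _ _, by rw [a.1, Finset.erase_insert hi], a.2⟩,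
      fun ⟨a, b, d⟩ => ⟨by rw [← b, Finset.insert_erase a], d⟩⟩
  sl_e _ c i k h y hy hi := funext fun a => by
    refine k.succAboveCases ?_ (fun a => ?_) a
    · obtain ⟨b, h1, h2⟩ := ((ac c.1).eqn i _ hy.2).1 (y.mem i hi)
      rw [ins_same, ← h2, Option.some.inj (h1.symm.trans (c.2.co_iff.1 h))]
      rfl
    · rw [ins_succ]
      rfl
  sl_φ _ c i k h v hv := by
    change ψ _ ((c.2.sl h).pv v) = ψ _ (c.2.pv (ins k v))
    unfold Sl.pv
    rw [← ex_ins c.2.en.inj]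
    rfl
  sl_co _ c i k h l k' := (c.2.sl h).co_iff.trans c.2.co_iff.symm
  sl_ε _ c i k h y hy := by
    have hi : i ∉ c.2.J := fun e => c.2.en.ne e k (c.2.co_iff.1 h)
    rw [show Sr.lab y = insert i c.2.J from hy.1, Finset.erase_insert hi]
    exact sgn_ins c.2.en (c.2.co_iff.1 h)
  nb _ c i h y hi hy := by
    obtain ⟨b, h1, -⟩ := ((ac c.1).eqn i _ hy.2).1 (y.mem i hi)
    obtain ⟨a, rfl⟩ := c.2.en.mem (ac c.1).inj (hy.1 ▸ Finset.notMem_erase i y.lab) h1
    simp [c.2.co_iff.2 h1] at h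
  bd m y y' h := by
    have a := y.card
    have b := y'.card
    obtain ⟨i, h1, h2⟩ := Finset.exists_mem_notMem_of_card_lt_card (s := y.lab) (t := y'.lab)
      (by omega)
    refine ⟨Sr.mk' y.pt (insert i y.lab) (by rw [Finset.card_insert_of_notMem h2]; omega) ?_, i,
      Finset.mem_insert_self _ _, Sr.ext' rfl (Finset.erase_insert h2)⟩
    simpa only [Finset.forall_mem_insert] using ⟨(show y.pt = y'.pt from h) ▸ y'.mem i h1, y.mem⟩
  uniq m c y hy y' h ne := by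
    have a := y.card
    have b := y'.card
    obtain ⟨l, h1, h2⟩ : ∃ l ∈ y'.lab, l ∉ y.lab := by
      by_contra e
      push Not at e
      exact ne (Sr.ext' h (Finset.eq_of_subset_of_card_le e (by omega)).symm)
    obtain ⟨b, h3, h4⟩ := ((ac c.1).eqn l _ hy.2).1 ((show y.pt = y'.pt from h) ▸ y'.mem l h1)
    obtain ⟨a, rfl⟩ := c.2.en.mem (ac c.1).inj (hy.1 ▸ h2) h3
    refine Finset.prod_eq_zero (Finset.mem_univ l) ?_
    rw [c.2.co_iff.2 h3]
    exact h4

/-- the description of the strata -/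
def mk : Mk (lad hc hF hK hψ) ac ψ where
  jx c := c.2.θ
  lb c := c.2.J
  cover := hc
  U_eq _ := rfl
  G_eq _ _ _ := gg_eq (dns hc)
  G_hol _ _ _ := gg_hol (dns hc) hF
  pt_hol := ym_hol hc
  pt_imm := ym_imm hc
  mem _ y := y.mem
  surj _ I h x hx := ⟨Sr.mk' x I h hx, rfl, rfl⟩
  inj _ _ _ := Sr.ext'
  src _ _ _ := Iff.rfl
  tg _ _ _ := Iff.rfl
  crd _ c _ h := (c.2.ex_ch h).symm
  jx_inj _ c := c.2.en.inj
  jx_rng _ c := c.2.en.rng
  lb_la _ c l hl e := by simpa [e] using c.2.en.ex l hl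
  co_eq _ c _ _ := c.2.co_iff
  jx_sl _ _ _ _ _ _ := rfl
  lb_sl _ _ _ _ _ := rfl
  ex _ β y h := ⟨let ⟨s, k⟩ := (ex_sl (ac β) h).1; ⟨⟨β, s⟩, rfl, k⟩, fun j a b =>
    let ⟨s, k⟩ := (ex_sl (ac β) h).2 j a b; ⟨⟨β, s⟩, rfl, k⟩⟩
  a_eq _ c c' y h _ := congrArg (fun y : Sr D n _ => F.g (ac c.1).fr (ac c'.1).fr y.pt)
    (c.2.ch.left_inv h)
  φ_eq _ c y h := congrArg (fun y : Sr D n _ => ψ (ac c.1).fr y.pt) (c.2.ch.left_inv h)
  psd hp m c z hz := by
    have h1 := At.of_target ((kd hc hF hK hψ m).atl c) hz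
    have h2 := (ac c.1).sub h1.2.2
    obtain ⟨J, h3⟩ := hess_pull (ym_hol hc m) h1 (at_chart _) (u := ψ (ac c.1).fr)
      ((hψ.smooth _ _ _ (at_chart _) h2).of_le (by norm_cast))
    have h4 := (hp _ _ _ (at_chart _) h2).conjTranspose_mul_mul_same (J.map (starRingEnd ℂ))
    have h5 : (J.map (starRingEnd ℂ)).conjTranspose = J.transpose := by
      ext a b
      simp
    rw [h5] at h4
    exact tgt (P := fun z => (cHess (((lad hc hF hK hψ).K m).φ c) z).PosSemidef) hz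
      (Eq.subst (motive := Matrix.PosSemidef) h3.symm h4)

end Vale.Agent.P281Z.Ld

namespace Vale.Agent.P281Z.Lg

theorem stLad : StLad := fun _ _ _ _ _ _ hF _ _ _ _ hK hψ hc =>
  ⟨Ld.lad hc hF hK hψ, Equiv.refl _, ⟨Ld.mk hc hF hK hψ⟩⟩

end Vale.Agent.P281Z.Lg
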