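import Vale.Agent.P281Z.Lg.Defs

/-!
# P281Z, block LD: the signs of the residues
-/

open Set Function

noncomputable section

namespace Vale.Agent.P281Z.Ld

open Vale.Agent.P272.K Vale.Agent.P281Z.Lg

variable {κ : Type} {n m : ℕ} {k k' : κ → Option (Fin n)} {J : Finset κ} {i : κ}

/-- different labels have different coordinates -/
def Inj (k : κ → Option (Fin n)) : Prop := ∀ l l' b, k l = some b → k l' = some b → l = l'

/-- `θ` enumerates the coordinates which are not used by `J` -/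
structure En (k : κ → Option (Fin n)) (J : Finset κ) (θ : Fin m → Fin n) : Prop where
  inj : Injective θ
  ex : ∀ l ∈ J, ∃ b, k l = some b
  rng : ∀ b, b ∈ range θ ↔ ∀ l ∈ J, k l ≠ some b

theorem En.ne {θ : Fin m → Fin n} (h : En k J θ) {l : κ} (hl : l ∈ J) (a : Fin m) :
    k l ≠ some (θ a) := (h.rng _).1 ⟨a, rfl⟩ l hl

theorem En.mem (hk : Inj k) {θ : Fin m → Fin n} (h : En k J θ) {l : κ} (hl : l ∉ J) {b : Fin n}
    (hb : k l = some b) : ∃ a, θ a = b :=
  (h.rng b).2 fun l' h1 h2 => hl (hk l l' b hb h2 ▸ h1)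

theorem exists_en (hk : Inj k) (h : ∀ l ∈ J, ∃ b, k l = some b) (hc : J.card + m = n) :
    (∃ θ : Fin m → Fin n, En k J θ) ∧
      ∀ θ : Fin m → Fin n, Injective θ → (∀ a, ∀ l ∈ J, k l ≠ some (θ a)) → En k J θ := by
  classical
  choose b hb using fun l : J => h l l.2
  have h1 : Injective b := fun l l' e => Subtype.ext (hk _ _ _ (hb l) (e ▸ hb l'))
  have h2 : (Finset.univ.image b)ᶜ.card = m := by
    rw [Finset.card_compl, Finset.card_image_of_injective _ h1]
    simp only [Fintype.card_fin, Finset.card_univ, Fintype.card_coe]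
    omega
  have h3 : ∀ a, a ∈ (Finset.univ.image b)ᶜ ↔ ∀ l ∈ J, k l ≠ some a := fun a => by
    simp only [Finset.mem_compl, Finset.mem_image, Finset.mem_univ, true_and, not_exists]
    exact ⟨fun p l hl e => p ⟨l, hl⟩ (Option.some.inj ((hb ⟨l, hl⟩).symm.trans e)),
      fun p l e => p l l.2 (e ▸ hb l)⟩
  refine ⟨⟨_, ((Finset.univ.image b)ᶜ.orderEmbOfFin h2).injective, h, fun a => ?_⟩,
    fun θ h4 h5 => ⟨h4, h, fun a => ?_⟩⟩
  · rw [Finset.range_orderEmbOfFin, Finset.mem_coe, h3]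
  · have h6 : Finset.univ.image θ = (Finset.univ.image b)ᶜ :=
      Finset.eq_of_subset_of_card_le (fun c hc => by
        obtain ⟨a, -, rfl⟩ := Finset.mem_image.1 hc
        exact (h3 _).2 (h5 a)) (by
        rw [h2, Finset.card_image_of_injective _ h4, Finset.card_univ, Fintype.card_fin])
    rw [← h3, ← h6]
    simp

variable [DecidableEq κ]

theorem En.ins {θ : Fin (m + 1) → Fin n} (h : En k J θ) {p : Fin (m + 1)}
    (hp : k i = some (θ p)) : En k (insert i J) fun a => θ (p.succAbove a) := by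
  refine ⟨h.inj.comp Fin.succAbove_right_injective, ?_, fun b => ?_⟩
  · simpa only [Finset.forall_mem_insert] using ⟨⟨_, hp⟩, h.ex⟩
  · rw [Finset.forall_mem_insert, ← h.rng, hp]
    refine ⟨?_, ?_⟩
    · rintro ⟨a, rfl⟩
      exact ⟨fun e => Fin.succAbove_ne p a (h.inj (Option.some.inj e)).symm, _, rfl⟩
    · rintro ⟨h1, a, rfl⟩
      obtain ⟨a, rfl⟩ := Fin.exists_succAbove_eq (x := a) (y := p) fun e => h1 (e ▸ rfl)
      exact ⟨a, rfl⟩

theorem En.up (hk : Inj k) (hi : i ∉ J) {θ : Fin m → Fin n} (h : En k (insert i J) θ) :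
    ∃ (θ₁ : Fin (m + 1) → Fin n) (p : Fin (m + 1)), En k J θ₁ ∧ k i = some (θ₁ p) ∧
      θ = fun a => θ₁ (p.succAbove a) := by
  obtain ⟨b, hb⟩ := h.ex i (Finset.mem_insert_self i J)
  have h0 : b ∉ range θ := fun ⟨a, e⟩ => h.ne (Finset.mem_insert_self i J) a (e ▸ hb)
  refine ⟨Fin.cons b θ, 0, ⟨Fin.cons_injective_iff.2 ⟨h0, h.inj⟩,
    fun l hl => h.ex l (Finset.mem_insert_of_mem hl), fun a => ?_⟩, hb, rfl⟩
  rw [Fin.range_cons, mem_insert_iff, h.rng, Finset.forall_mem_insert, hb]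
  refine ⟨?_, fun p => ?_⟩
  · rintro (rfl | p)
    · exact fun l hl e => hi (hk l i _ e hb ▸ hl)
    · exact p.2
  · by_cases e : a = b
    · exact Or.inl e
    · exact Or.inr ⟨fun e' => e (Option.some.inj e').symm, p⟩

/-- the number of the coordinate -/
def vl (k : κ → Option (Fin n)) (l : κ) : ℕ := (k l).elim 0 Fin.val

/-- `-1` or `1` -/
def pm (P : Prop) [Decidable P] : ℂ := if P then -1 else 1

theorem pm_sq (P : Prop) [Decidable P] : pm P * pm P = 1 := by
  unfold pm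
  split_ifs <;> simp

omit [DecidableEq κ] in
theorem prod_pm {α : Type} (s : Finset α) (P : α → Prop) [DecidablePred P] :
    ∏ a ∈ s, pm (P a) = (-1) ^ (s.filter P).card := by
  simp [pm, Finset.prod_ite]

theorem prod_sa (p : Fin (m + 1)) : ∏ a : Fin m, pm (p.succAbove a < p) = (-1) ^ (p : ℕ) := by
  rw [prod_pm]
  refine congrArg _ ?_
  simp only [Fin.succAbove_lt_iff_castSucc_lt]
  simp only [Fin.lt_def, Fin.val_castSucc]
  rw [Fin.card_filter_val_lt]
  omega

end Vale.Agent.P281Z.Ld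

namespace Vale.Agent.P281Z.Ld

open Vale.Agent.P272.K Vale.Agent.P281Z.Lg

variable {κ : Type} [LinearOrder κ] {n m : ℕ} {k k' : κ → Option (Fin n)} {J : Finset κ} {i : κ}

/-- the sign of the numbering -/
def iv (θ : Fin m → Fin n) : ℂ := ∏ a, ∏ a', pm (a < a' ∧ θ a' < θ a)

/-- the sign -/
def sgn (k : κ → Option (Fin n)) (J : Finset κ) (θ : Fin m → Fin n) : ℂ :=
  (∏ l ∈ J, ∏ l' ∈ J, pm (l < l' ∧ vl k l' < vl k l)) *
    (∏ l ∈ J, ∏ a, pm ((θ a : ℕ) < vl k l)) * iv θ

theorem iv_sq (θ : Fin m → Fin n) : iv θ * iv θ = 1 := by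
  simp only [iv, ← Finset.prod_mul_distrib, pm_sq, Finset.prod_const_one]

theorem sgn_sq (k : κ → Option (Fin n)) (J : Finset κ) (θ : Fin m → Fin n) :
    sgn k J θ * sgn k J θ = 1 := by
  rw [sgn, mul_mul_mul_comm, iv_sq, mul_mul_mul_comm]
  simp only [← Finset.prod_mul_distrib, pm_sq, Finset.prod_const_one, mul_one]

theorem iv_perm (σ : Equiv.Perm (Fin n)) : iv σ = (Equiv.Perm.sign σ : ℤ) := by
  rw [σ.sign_eq_prod_prod_Ioi, iv]
  simp only [Units.coe_prod, Int.cast_prod]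
  refine Finset.prod_congr rfl fun a _ => ?_
  rw [← Finset.filter_lt_eq_Ioi, Finset.prod_filter]
  refine Finset.prod_congr rfl fun b _ => ?_
  by_cases h : a < b
  · rcases lt_or_gt_of_ne (σ.injective.ne h.ne) with c | c <;> simp [pm, h, c, c.not_gt]
  · simp [pm, h]

theorem iv_sa {θ : Fin (m + 1) → Fin n} (h : Injective θ) (p : Fin (m + 1)) :
    (∏ a : Fin m, pm ((θ (p.succAbove a) : ℕ) < θ p)) * iv (fun a => θ (p.succAbove a)) =
      (-1) ^ (p : ℕ) * iv θ := by
  have h2 : ∀ a : Fin m, pm ((θ (p.succAbove a) : ℕ) < θ p) = pm (p.succAbove a < p) *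
      (pm (p < p.succAbove a ∧ θ (p.succAbove a) < θ p) *
        pm (p.succAbove a < p ∧ θ p < θ (p.succAbove a))) := fun a => by
    rcases lt_or_gt_of_ne (Fin.succAbove_ne p a) with c | c <;>
      rcases lt_or_gt_of_ne (h.ne (Fin.succAbove_ne p a)) with d | d <;>
        simp [pm, c, d, c.not_gt, d.not_gt]
  simp only [h2, iv, Fin.prod_univ_succAbove _ p, Finset.prod_mul_distrib, prod_sa,
    Fin.succAbove_lt_succAbove_iff, lt_self_iff_false, false_and]
  rw [pm, if_neg not_false]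
  ring

theorem sg_sq (I : Finset κ) (i : κ) : sg I i * sg I i = 1 := by
  rw [sg, ← mul_pow]
  simp

theorem sgn_ins {θ : Fin (m + 1) → Fin n} (h : En k J θ) {p : Fin (m + 1)}
    (hp : k i = some (θ p)) :
    sgn k (insert i J) (fun a => θ (p.succAbove a)) = sg J i * (-1) ^ (p : ℕ) * sgn k J θ := by
  have hi : i ∉ J := fun e => h.ne e p hp
  have hv : vl k i = θ p := by simp [vl, hp]
  have h1 := iv_sa h.inj p
  rw [← hv] at h1
  have h2 : ∀ l ∈ J, pm (i < l ∧ vl k l < vl k i) * pm (l < i ∧ vl k i < vl k l) =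
      pm (i < l) * pm ((θ p : ℕ) < vl k l) := fun l hl => by
    obtain ⟨b, hb⟩ := h.ex l hl
    have a1 : vl k l ≠ vl k i := by
      rw [hv, vl, hb]
      exact fun e => h.ne hl p (hb.trans (congrArg _ (Fin.ext e)))
    rw [← hv]
    rcases lt_or_gt_of_ne (show i ≠ l from fun e => hi (e ▸ hl)) with a | a <;>
      rcases lt_or_gt_of_ne a1 with c | c <;> simp [pm, a, c, a.not_gt, c.not_gt]
  have h3 := Finset.prod_congr rfl h2
  simp only [Finset.prod_mul_distrib] at h3
  rw [prod_pm J fun l => i < l] at h3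
  simp only [sgn, Finset.prod_insert hi, Fin.prod_univ_succAbove _ p, Finset.prod_mul_distrib,
    sg, lt_self_iff_false, false_and]
  rw [pm, if_neg not_false]
  linear_combination ((-1) ^ (p : ℕ) * iv θ * (∏ l ∈ J, ∏ l' ∈ J, pm (l < l' ∧ vl k l' < vl k l)) *
    ∏ l ∈ J, ∏ a : Fin m, pm ((θ (p.succAbove a) : ℕ) < vl k l)) * h3 +
    ((∏ l ∈ J, pm (i < l ∧ vl k l < vl k i)) * (∏ l ∈ J, pm (l < i ∧ vl k i < vl k l)) *
      (∏ l ∈ J, ∏ l' ∈ J, pm (l < l' ∧ vl k l' < vl k l)) *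
      ∏ l ∈ J, ∏ a : Fin m, pm ((θ (p.succAbove a) : ℕ) < vl k l)) * h1

/-- the determinant of a matrix with elementary rows -/
theorem det_en (hk : Inj k) (hk' : Inj k') (A : Matrix (Fin n) (Fin n) ℂ) (u : κ → ℂ)
    (J : Finset κ) : ∀ (m : ℕ) (θ θ' : Fin m → Fin n), En k J θ → En k' J θ' →
    (∀ l ∈ J, ∀ b b' a, k l = some b → k' l = some b' → A b' a = if a = b then u l else 0) →
    sgn k J θ * A.det = sgn k' J θ' * ((∏ l ∈ J, u l) * (A.submatrix θ' θ).det) := by
  induction J using Finset.induction_on with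
  | empty =>
    intro m θ θ' h h' _
    have s : ∀ {k : κ → Option (Fin n)} {θ : Fin m → Fin n}, En k ∅ θ → range θ = univ :=
      fun h => eq_univ_of_forall fun b => (h.rng b).2 (by simp)
    obtain rfl : m = n := by
      simpa using Fintype.card_of_bijective ⟨h.inj, range_eq_univ.1 (s h)⟩
    let σ := Equiv.ofBijective θ ⟨h.inj, range_eq_univ.1 (s h)⟩
    let σ' := Equiv.ofBijective θ' ⟨h'.inj, range_eq_univ.1 (s h')⟩
    have a1 : (A.submatrix θ' θ).det = iv θ' * (iv θ * A.det) := by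
      rw [show iv θ = _ from iv_perm σ, show iv θ' = _ from iv_perm σ', ← Matrix.det_permute',
        ← Matrix.det_permute]
      rfl
    simp only [sgn, Finset.prod_empty, one_mul, a1]
    rw [← mul_assoc, iv_sq, one_mul]
  | insert i J hi ih =>
    intro m θ θ' h h' hA
    obtain ⟨θ₁, p, h1, h2, rfl⟩ := h.up hk hi
    obtain ⟨θ₁', p', h1', h2', rfl⟩ := h'.up hk' hi
    have a1 := ih _ _ _ h1 h1' fun l hl => hA l (Finset.mem_insert_of_mem hl)
    have a2 : (A.submatrix θ₁' θ₁).det = (-1) ^ ((p' : ℕ) + p) * u i *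
        (A.submatrix (fun a => θ₁' (p'.succAbove a)) fun a => θ₁ (p.succAbove a)).det := by
      rw [Matrix.det_succ_row _ p', Finset.sum_eq_single p]
      · rw [Matrix.submatrix_apply, hA i (Finset.mem_insert_self i J) _ _ _ h2 h2', if_pos rfl]
        rfl
      · intro a _ ha
        rw [Matrix.submatrix_apply, hA i (Finset.mem_insert_self i J) _ _ _ h2 h2',
          if_neg fun e => ha (h1.inj e), mul_zero, zero_mul]
      · simp
    have a3 : (-1 : ℂ) ^ (p : ℕ) * (-1) ^ (p : ℕ) = 1 := by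
      rw [← mul_pow]
      simp
    rw [sgn_ins h1 h2, sgn_ins h1' h2', mul_assoc, a1, a2, Finset.prod_insert hi, pow_add]
    linear_combination (sg J i * sgn k' J θ₁' * (∏ l ∈ J, u l) * (-1) ^ (p' : ℕ) * u i *
      (A.submatrix (fun a => θ₁' (p'.succAbove a)) fun a => θ₁ (p.succAbove a)).det) * a3

end Vale.Agent.P281Z.Ld
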