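import Vale.Agent.P281Z.Ld.Str
import Vale.Agent.P277Z.Slc.Div

/-!
# P281Z, block LD: the cocycle of the logarithmic canonical bundle
-/

open scoped Manifold ContDiff Topology
open Set Filter Function
open Vale.Agent.P272.K Vale.Agent.P285.H281.FD
open Vale.Agent.P277Z (Hol at_chart)
open Vale.Agent.P277Z.Slc (Ind LEq Snc)

set_option linter.unusedSectionVars false

noncomputable section

namespace Vale.Agent.P281Z.Ld

open Vale.Agent.P281Z.Lg

variable {n m : ℕ} {V : Mf n} {κ : Type} {D : κ → Set V.X} {F : Bd V.X} {x : V.X}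

section jac

variable {e e' e'' : Chart n V.X}

theorem src_near (hx : x ∈ e.source) {P : V.X → Prop} (h : ∀ᶠ y in 𝓝 x, P y) :
    ∀ᶠ z in 𝓝 (e x), P (e.symm z) :=
  (e.continuousAt_symm (e.map_source hx)).eventually (by rwa [e.left_inv hx])

theorem jac_mul (h : Co n e) (h' : Co n e') (h'' : Co n e'') (hx : x ∈ e.source)
    (hx' : x ∈ e'.source) (hx'' : x ∈ e''.source) :
    jacM e e'' x = jacM e' e'' x * jacM e e' x := by
  have h1 : (fun z => e'' (e.symm z)) =ᶠ[𝓝 (e x)] fun z => e'' (e'.symm (e' (e.symm z))) :=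
    (src_near hx (e'.open_source.eventually_mem hx')).mono fun z hz => by
      simp only [e'.left_inv hz]
  have h2 := jmat_comp (σ := fun z => e'' (e'.symm z)) (τ := fun z => e' (e.symm z)) (z := e x)
    (by simpa only [e.left_inv hx] using (co_trans h' h'' hx' hx'').differentiableAt)
    (co_trans h h' hx hx').differentiableAt
  rw [jacM_eq, jacM_eq, jacM_eq, jmat_congr h1, h2, e.left_inv hx]

theorem jac_self (hx : x ∈ e.source) : jacM e e x = 1 := by
  rw [jacM_eq, ← jmat_id (e x)]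
  exact jmat_congr (e.eventually_right_inverse' hx)

theorem hol_jac (h : Co n e) (h' : Co n e') (hx : x ∈ e.source) (hx' : x ∈ e'.source) :
    Hol n (fun y => (jacM e e' y).det) x :=
  hol_det fun a b => (h.an x hx).cmp (G := fun z => jmat (fun z => e' (e.symm z)) z a b)
    (jmat_holo (co_trans h h' hx hx').contDiffAt a b).analyticAt

theorem leq_crd (h : Co n e) (hx : x ∈ e.source) (b : Fin n) (c : Chart n V.X) (hc : At c x) :
    fderiv ℂ (fun z => e (c.symm z) b) (c x) ≠ 0 := fun h0 => by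
  have h1 := ((h.an x hx).hol b c hc).differentiableAt.hasFDerivAt
  have h2 := (h.inv _ (e.map_source hx) c
    ((e.left_inv hx).symm ▸ hc)).differentiableAt.hasFDerivAt
  have h3 := HasFDerivAt.comp (e x) (g := fun z => e (c.symm z) b)
    (by rw [e.left_inv hx]; exact h1) h2
  have h4 : (fun v : Cm n => v b) =ᶠ[𝓝 (e x)] (fun z => e (c.symm z) b) ∘ fun v => c (e.symm v) := by
    filter_upwards [src_near hx (c.open_source.eventually_mem hc.2),
      e.eventually_right_inverse' hx] with v a1 a2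
    simp only [comp, c.left_inv a1, a2]
  have h5 := (h3.congr_of_eventuallyEq h4).unique (hasFDerivAt_apply b (e x))
  rw [h0, ContinuousLinearMap.zero_comp] at h5
  simpa using congrArg (fun L : Cm n →L[ℂ] ℂ => L (Pi.single b 1)) h5

end jac

variable {A A' A'' : Ac V D F} {l : κ}

/-- the equation of the component `l` -/
def zl (A : Ac V D F) (l : κ) (x : V.X) : ℂ := zt (A.la l) (A.ch x)

theorem zl_leq (hx : x ∈ A.ch.source) (l : κ) : LEq n (D l) x (zl A l) := by
  refine ⟨?_, fun e he => ?_⟩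
  · filter_upwards [A.ch.open_source.mem_nhds hx] with y hy
    rw [A.eqn l y hy, zl]
    cases A.la l <;> simp [zt]
  · unfold zl
    cases A.la l with
    | none => exact ⟨analyticAt_const, fun h => absurd h one_ne_zero⟩
    | some b => exact ⟨(A.co.an x hx).hol b e he, fun _ => leq_crd A.co hx b e he⟩

/-- the quotient of the equations -/
def rho (A A' : Ac V D F) (l : κ) : V.X → ℂ :=
  P277Z.Slc.Dv.ext (D l)ᶜ fun y => zl A l y / zl A' l y

theorem rho_spec (hD : Dense (D l)ᶜ) (h : x ∈ A.ch.source) (h' : x ∈ A'.ch.source) :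
    Hol n (rho A A' l) x ∧ ∀ᶠ y in 𝓝 x, zl A l y = rho A A' l y * zl A' l y := by
  obtain ⟨u, h1, -, h3⟩ := P277Z.Slc.stUnit n V.X (D l) x _ _ (zl_leq h' l) (zl_leq h l)
  have h4 := P277Z.Slc.Dv.ext_eq (f := fun y => zl A l y / zl A' l y) hD h1 (by
    filter_upwards [h3, (zl_leq h' l).1] with y h5 h6 h7
    rw [h5, mul_div_cancel_right₀ _ (mt h6.1 h7)])
  refine ⟨h1.congr h4, ?_⟩
  filter_upwards [h3, h4] with y h5 h6
  rw [rho, ← h6, h5]

theorem rho_self (hD : Dense (D l)ᶜ) (h : x ∈ A.ch.source) : rho A A l x = 1 :=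
  P277Z.Slc.Dv.ext_at hD continuousAt_const
    ((zl_leq h l).1.mono fun _ a b => div_self (mt a.1 b))

theorem rho_mul (hD : Dense (D l)ᶜ) (h : x ∈ A.ch.source) (h' : x ∈ A'.ch.source)
    (h'' : x ∈ A''.ch.source) : rho A A'' l x = rho A A' l x * rho A' A'' l x := by
  refine P277Z.Slc.Dv.ext_at hD ((rho_spec hD h h').1.cont.mul (rho_spec hD h' h'').1.cont) ?_
  filter_upwards [(rho_spec hD h h').2, (rho_spec hD h' h'').2, (zl_leq h'' l).1] with y a b c d
  rw [Pi.mul_apply, div_eq_iff (mt c.1 d), mul_assoc, ← b, ← a]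

theorem jac_row (hD : Dense (D l)ᶜ) (h : x ∈ A.ch.source) (h' : x ∈ A'.ch.source) (hl : x ∈ D l)
    {b b' : Fin n} (hb : A.la l = some b) (hb' : A'.la l = some b') (a : Fin n) :
    jacM A.ch A'.ch x b' a = if a = b then rho A' A l x else 0 := by
  obtain ⟨h1, h2⟩ := rho_spec hD h' h
  have h3 : (fun z => A'.ch (A.ch.symm z) b') =ᶠ[𝓝 (A.ch x)]
      fun z => rho A' A l (A.ch.symm z) * z b := by
    filter_upwards [src_near h h2, A.ch.eventually_right_inverse' h] with z p q
    simpa only [zl, hb, hb', zt, Option.elim, q] using p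
  have h4 := (A.co.an_hol (A.ch.map_source h)
    ((A.ch.left_inv h).symm ▸ h1)).differentiableAt.hasFDerivAt.mul (hasFDerivAt_apply b (A.ch x))
  have h5 : A.ch x b = 0 := by simpa only [zl, hb, zt, Option.elim] using (zl_leq h l).mem.2 hl
  have h6 := h4.congr_of_eventuallyEq h3
  change dz a (fun z => A'.ch (A.ch.symm z) b') (A.ch x) = _
  rw [dz_of_holo h6.differentiableAt, h6.fderiv, h5, A.ch.left_inv h]
  simp [Pi.single_apply, eq_comm]

variable [Fintype κ]

/-- the cocycle -/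
def gg (A A' : Ac V D F) (x : V.X) : ℂ :=
  (jacM A.ch A'.ch x).det * F.g A.fr A'.fr x * ∏ l, rho A A' l x

variable (hD : ∀ l, Dense (D l)ᶜ) (hF : IsLB n F)
include hD

theorem gg_eq (h : x ∈ A.ch.source) (h' : x ∈ A'.ch.source) :
    gg A A' x * A'.zp x = (jacM A.ch A'.ch x).det * F.g A.fr A'.fr x * A.zp x := by
  rw [gg, mul_assoc, Ac.zp, ← Finset.prod_mul_distrib]
  exact congrArg _ (Finset.prod_congr rfl fun l _ => (rho_spec (hD l) h h').2.self_of_nhds.symm)

theorem gg_rel [LinearOrder κ] (s : Sl A m) (s' : Sl A' m) {y : Sr D n m} (h : y ∈ s.ch.source)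
    (h' : y ∈ s'.ch.source) :
    sgn A.la s.J s.θ * (∏ l, zt (s.co l) (s.ch y)) *
      (F.g A.fr A'.fr y.pt * (jacM s.ch s'.ch y).det) =
      gg A A' y.pt * (sgn A'.la s'.J s'.θ * ∏ l, zt (s'.co l) (s'.ch y)) := by
  have e : s'.J = s.J := h'.1.symm.trans h.1
  have e1 := det_en A.inj A'.inj (jacM A.ch A'.ch y.pt) (fun l => rho A' A l y.pt) s.J m s.θ s'.θ
    s.en (e ▸ s'.en) fun l hl b b' a hb hb' =>
      jac_row (hD l) h.2 h'.2 (y.mem l (h.1.symm ▸ hl)) hb hb' a
  have e4 : (∏ l ∈ s.J, rho A' A l y.pt) * ∏ l ∈ s.J, rho A A' l y.pt = 1 := by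
    rw [← Finset.prod_mul_distrib]
    exact Finset.prod_eq_one fun l _ =>
      (rho_mul (hD l) h'.2 h.2 h'.2).symm.trans (rho_self (hD l) h'.2)
  have e5 : ∏ l ∈ s.Jᶜ, zt (A.la l) (A.ch y.pt) =
      (∏ l ∈ s.Jᶜ, rho A A' l y.pt) * ∏ l ∈ s.Jᶜ, zt (A'.la l) (A'.ch y.pt) := by
    rw [← Finset.prod_mul_distrib]
    exact Finset.prod_congr rfl fun l _ => (rho_spec (hD l) h.2 h'.2).2.self_of_nhds
  rw [s.zt_co, s'.zt_co, s.jac s' h h', gg, e, e5, ← Finset.prod_mul_prod_compl s.J]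
  have e2 := sgn_sq A.la s.J s.θ
  have e3 := sgn_sq A'.la s.J s'.θ
  generalize sgn A.la s.J s.θ = a at *
  generalize sgn A'.la s.J s'.θ = a' at *
  generalize ∏ l ∈ s.J, rho A' A l y.pt = U at *
  generalize ∏ l ∈ s.J, rho A A' l y.pt = R at *
  generalize ((jacM A.ch A'.ch y.pt).submatrix s'.θ s.θ).det = ds at *
  generalize (jacM A.ch A'.ch y.pt).det = dt at *
  linear_combination (F.g A.fr A'.fr y.pt * (∏ l ∈ s.Jᶜ, rho A A' l y.pt) *
    ∏ l ∈ s.Jᶜ, zt (A'.la l) (A'.ch y.pt)) *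
    (-(a * a' * R) * e1 + dt * R * a' * e2 - a * U * R * ds * e3 - a * ds * e4)

include hF

theorem gg_hol (h : x ∈ A.ch.source) (h' : x ∈ A'.ch.source) : Hol n (gg A A') x :=
  ((hol_jac A.co A'.co h h').mul fun e he =>
    (hF.holo _ _ e x he (A.sub h) (A'.sub h')).analyticAt).mul
    (Hol.prod _ fun l _ => (rho_spec (hD l) h h').1)

theorem gg_self (h : x ∈ A.ch.source) : gg A A x = 1 := by
  have a := A.sub h
  rw [gg, jac_self h, Matrix.det_one, Finset.prod_eq_one fun l _ => rho_self (hD l) h,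
    mul_left_cancel₀ (hF.ne_zero _ _ x a a) ((hF.cocycle _ _ _ x a a a).trans (mul_one _).symm)]
  simp

theorem gg_mul (h : x ∈ A.ch.source) (h' : x ∈ A'.ch.source) (h'' : x ∈ A''.ch.source) :
    gg A A'' x = gg A A' x * gg A' A'' x := by
  rw [gg, gg, gg, jac_mul A.co A'.co A''.co h h' h'', Matrix.det_mul,
    ← hF.cocycle _ _ _ x (A.sub h) (A'.sub h') (A''.sub h''),
    Finset.prod_congr rfl fun l _ => rho_mul (hD l) h h' h'', Finset.prod_mul_distrib]
  ring

end Vale.Agent.P281Z.Ld
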