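import Vale.Agent.P281Z.Ld.Det
import Vale.Agent.P281Z.Lg.Bas
import Vale.Agent.P281Z.Lg.Mk

/-!
# P281Z, block LD: the strata and their charts
-/

open scoped Manifold ContDiff Topology
open Set Filter Function
open Vale.Agent.P272.K Vale.Agent.P285.H281.FD
open Vale.Agent.P277Z (Hol at_chart)
open Vale.Agent.P277Z.Slc (Ind LEq Snc)

set_option linter.unusedSectionVars false

noncomputable section

namespace Vale.Agent.P281Z.Ld

open Vale.Agent.P281Z.Lg

section ex

variable {n m : ℕ} {θ : Fin m → Fin n}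

/-- the extension by zero -/
def ex (θ : Fin m → Fin n) : Cm m →L[ℂ] Cm n :=
  LinearMap.toContinuousLinearMap (Function.ExtendByZero.linearMap ℂ θ)

theorem ex_at (h : Injective θ) (v : Cm m) (a : Fin m) : ex θ v (θ a) = v a :=
  h.extend_apply v 0 a

theorem ex_out (v : Cm m) {b : Fin n} (hb : b ∉ range θ) : ex θ v b = 0 :=
  extend_apply' v (0 : Cm n) b hb

theorem ex_res (h : Injective θ) {z : Cm n} (hz : ∀ b ∉ range θ, z b = 0) :
    ex θ (fun a => z (θ a)) = z := by
  funext b
  by_cases hb : b ∈ range θ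
  · obtain ⟨a, rfl⟩ := hb
    exact ex_at h _ a
  · rw [ex_out _ hb, hz b hb]

theorem ex_inj (h : Injective θ) : Injective (ex θ) := fun v w e =>
  funext fun a => by rw [← ex_at h v, e, ex_at h]

theorem ex_single (h : Injective θ) (a : Fin m) :
    ex θ (Pi.single a 1) = Pi.single (θ a) 1 := by
  rw [← ex_res h (z := Pi.single (θ a) 1) fun b hb =>
    Pi.single_eq_of_ne (fun e => hb ⟨a, e.symm⟩) _]
  refine congrArg _ (funext fun c => ?_)
  simp [Pi.single_apply, h.eq_iff]

theorem ex_ins {θ : Fin (m + 1) → Fin n} (h : Injective θ) (p : Fin (m + 1)) (v : Cm m) :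
    ex (fun a => θ (p.succAbove a)) v = ex θ (ins p v) := by
  have h1 : Injective fun a => θ (p.succAbove a) := h.comp Fin.succAbove_right_injective
  rw [← ex_res h1 (z := ex θ (ins p v))]
  · simp only [ex_at h, ins_succ]
  · intro b hb
    by_cases h2 : b ∈ range θ
    · obtain ⟨a, rfl⟩ := h2
      by_cases h3 : a = p
      · rw [ex_at h, h3, ins_same]
      · obtain ⟨a, rfl⟩ := Fin.exists_succAbove_eq h3
        exact absurd ⟨a, rfl⟩ hb
    · exact ex_out _ h2

open Classical in
/-- the inverse of the numbering -/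
def invFun' (θ : Fin m → Fin n) (b : Fin n) : Option (Fin m) :=
  if h : ∃ a, θ a = b then some h.choose else none

theorem invFun'_iff (h : Injective θ) {b : Fin n} {a : Fin m} :
    invFun' θ b = some a ↔ θ a = b := by
  unfold invFun'
  split_ifs with k
  · exact ⟨fun e => Option.some.inj e ▸ k.choose_spec,
      fun e => congrArg some (h (k.choose_spec.trans e.symm))⟩
  · exact iff_of_false (by simp) fun e => k ⟨a, e⟩

end ex

/-- the labels -/
def Lb (κ : Type) : Type := Finset κ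

instance (κ : Type) : TopologicalSpace (Lb κ) := ⊥

instance (κ : Type) : DiscreteTopology (Lb κ) := ⟨rfl⟩

instance (κ : Type) [Fintype κ] : Finite (Lb κ) := inferInstanceAs (Finite (Finset κ))

/-- the label as a finite set -/
def Lb.fs {κ : Type} (J : Lb κ) : Finset κ := J

section sr

variable {n m : ℕ} {X κ : Type} [TopologicalSpace X] {D : κ → Set X}

/-- the disjoint union of the strata of dimension `m` -/
abbrev Sr (D : κ → Set X) (n m : ℕ) : Type :=
  {p : X × Lb κ // p.2.fs.card + m = n ∧ ∀ l ∈ p.2.fs, p.1 ∈ D l}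

/-- the point -/
def Sr.pt (y : Sr D n m) : X := y.1.1

/-- the label -/
def Sr.lab (y : Sr D n m) : Finset κ := y.1.2

/-- the point of a stratum -/
def Sr.mk' (x : X) (J : Finset κ) (h : J.card + m = n) (h' : ∀ l ∈ J, x ∈ D l) : Sr D n m :=
  ⟨(x, J), h, h'⟩

theorem Sr.card (y : Sr D n m) : y.lab.card + m = n := y.2.1

theorem Sr.mem (y : Sr D n m) : ∀ l ∈ y.lab, y.pt ∈ D l := y.2.2

theorem Sr.ext' {y y' : Sr D n m} (h : y.pt = y'.pt) (h' : y.lab = y'.lab) : y = y' :=
  Subtype.ext (Prod.ext h h')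

theorem Sr.cont : Continuous (Sr.pt : Sr D n m → X) :=
  continuous_fst.comp continuous_subtype_val

theorem Sr.opn (J : Finset κ) : IsOpen {y : Sr D n m | y.lab = J} :=
  (isOpen_discrete {I : Lb κ | I = J}).preimage (continuous_snd.comp continuous_subtype_val)

theorem Sr.cpt [CompactSpace X] [Fintype κ] (h : ∀ l, IsClosed (D l)) :
    CompactSpace (Sr D n m) := by
  refine isCompact_iff_compactSpace.1 (IsClosed.isCompact (IsClosed.and
    ((isClosed_discrete {I : Lb κ | I.fs.card + m = n}).preimage continuous_snd) ?_))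
  rw [ofPred_forall]
  refine isClosed_iInter fun l => ?_
  simp only [imp_iff_not_or]
  exact ((isClosed_discrete {I : Lb κ | l ∉ I.fs}).preimage continuous_snd).union
    ((h l).preimage continuous_fst)

/-- the same point on a bigger stratum -/
def Sr.up [DecidableEq κ] (y : Sr D n m) {i : κ} (hi : i ∈ y.lab) : Sr D n (m + 1) :=
  Sr.mk' y.pt (y.lab.erase i) (by
    have := Finset.card_erase_add_one hi
    have := y.card
    omega) fun l hl => y.mem l (Finset.mem_of_mem_erase hl)

end sr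

variable {n m : ℕ} {V : Mf n} {κ : Type} {D : κ → Set V.X} {F : Bd V.X}

/-- a slice of the coordinates -/
structure Sl (A : Ac V D F) (m : ℕ) where
  J : Finset κ
  θ : Fin m → Fin n
  en : En A.la J θ
  card : J.card + m = n

namespace Sl

variable {A A' : Ac V D F} (s : Sl A m)

open Classical in
/-- the point with the coordinates `v` -/
def pv (v : Cm m) : V.X := if ex s.θ v ∈ A.ch.target then A.ch.symm (ex s.θ v) else A.ctr

theorem pv_eq {v : Cm m} (h : ex s.θ v ∈ A.ch.target) : s.pv v = A.ch.symm (ex s.θ v) := if_pos h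

theorem pv_mem (v : Cm m) (l : κ) (hl : l ∈ s.J) : s.pv v ∈ D l := by
  obtain ⟨b, hb⟩ := s.en.ex l hl
  by_cases h : ex s.θ v ∈ A.ch.target
  · rw [s.pv_eq h, A.eqn _ _ (A.ch.map_target h), A.ch.right_inv h]
    exact ⟨b, hb, ex_out _ fun e => (s.en.rng b).1 e l hl hb⟩
  · rw [pv, if_neg h]
    exact (A.eqn l _ A.ctr_mem).2 ⟨b, hb, A.ctr_z l b hb⟩

theorem ex_crd {x : V.X} (h : x ∈ A.ch.source) (h' : ∀ l ∈ s.J, x ∈ D l) :
    ex s.θ (fun a => A.ch x (s.θ a)) = A.ch x := by
  refine ex_res s.en.inj fun b hb => ?_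
  rw [s.en.rng] at hb
  push Not at hb
  obtain ⟨l, h1, h2⟩ := hb
  obtain ⟨b', h3, h4⟩ := (A.eqn l x h).1 (h' l h1)
  exact Option.some.inj (h2.symm.trans h3) ▸ h4

/-- the chart -/
def ch : Chart m (Sr D n m) where
  toFun y a := A.ch y.pt (s.θ a)
  invFun v := Sr.mk' (s.pv v) s.J s.card (s.pv_mem v)
  source := {y | y.lab = s.J ∧ y.pt ∈ A.ch.source}
  target := ex s.θ ⁻¹' A.ch.target
  map_source' y h := by
    rw [mem_preimage, s.ex_crd h.2 (h.1 ▸ y.mem)]
    exact A.ch.map_source h.2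
  map_target' v h := ⟨rfl, by
    change s.pv v ∈ _
    rw [s.pv_eq h]
    exact A.ch.map_target h⟩
  left_inv' y h := by
    have e := s.ex_crd h.2 (h.1 ▸ y.mem)
    refine Sr.ext' ?_ h.1.symm
    change s.pv _ = _
    rw [s.pv_eq (e.symm ▸ A.ch.map_source h.2), e, A.ch.left_inv h.2]
  right_inv' v h := funext fun a => by
    change A.ch (s.pv v) _ = _
    rw [s.pv_eq h, A.ch.right_inv h, ex_at s.en.inj]
  open_source := (Sr.opn _).inter (A.ch.open_source.preimage Sr.cont)
  open_target := A.ch.open_target.preimage (ex s.θ).continuous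
  continuousOn_toFun := continuousOn_pi.2 fun a => (continuous_apply _).comp_continuousOn
    (A.ch.continuousOn.comp Sr.cont.continuousOn fun _ h => h.2)
  continuousOn_invFun := Topology.IsInducing.subtypeVal.continuousOn_iff.2
    (((A.ch.continuousOn_symm.comp (ex s.θ).continuous.continuousOn fun _ h => h).congr
      fun _ h => s.pv_eq h).prodMk continuousOn_const)

theorem pt_symm {v : Cm m} (h : v ∈ s.ch.target) : (s.ch.symm v).pt = A.ch.symm (ex s.θ v) :=
  s.pv_eq h

theorem pt_near {v : Cm m} (h : v ∈ s.ch.target) :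
    ∀ᶠ w in 𝓝 v, (s.ch.symm w).pt = A.ch.symm (ex s.θ w) :=
  (s.ch.open_target.eventually_mem h).mono fun _ k => s.pt_symm k

theorem ex_ch {y : Sr D n m} (h : y ∈ s.ch.source) : ex s.θ (s.ch y) = A.ch y.pt :=
  s.ex_crd h.2 (h.1 ▸ y.mem)

theorem imC : ImC n Sr.pt s.ch := fun z hz e he => by
  rw [s.pt_symm hz] at he
  have h1 : (fun w => e (s.ch.symm w).pt) =ᶠ[𝓝 z] (fun w => e (A.ch.symm w)) ∘ ex s.θ :=
    (s.pt_near hz).mono fun _ k => congrArg e k
  have h2 := A.co.inv _ hz e he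
  refine ⟨(h2.comp ((ex s.θ).analyticAt z)).congr h1.symm, ?_⟩
  rw [h1.fderiv_eq, (h2.differentiableAt.hasFDerivAt.comp z (ex s.θ).hasFDerivAt).fderiv]
  exact (A.co.inj hz he).comp (ex_inj s.en.inj)

/-- the coordinate of the component `l` -/
def co (l : κ) : Option (Fin m) := (A.la l).bind (invFun' s.θ)

theorem co_iff {l : κ} {a : Fin m} : s.co l = some a ↔ A.la l = some (s.θ a) := by
  rw [co, Option.bind_eq_some_iff]
  exact ⟨fun ⟨b, h1, h2⟩ => (invFun'_iff s.en.inj).1 h2 ▸ h1,
    fun h => ⟨_, h, (invFun'_iff s.en.inj).2 rfl⟩⟩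

/-- the slice of a slice -/
def sl [DecidableEq κ] (s : Sl A (m + 1)) {i : κ} {p : Fin (m + 1)} (h : s.co i = some p) :
    Sl A m where
  J := insert i s.J
  θ a := s.θ (p.succAbove a)
  en := s.en.ins (s.co_iff.1 h)
  card := by
    have := s.card
    rw [Finset.card_insert_of_notMem fun e => s.en.ne e p (s.co_iff.1 h)]
    omega

theorem zt_co [Fintype κ] [DecidableEq κ] (y : Sr D n m) :
    ∏ l, zt (s.co l) (s.ch y) = ∏ l ∈ s.Jᶜ, zt (A.la l) (A.ch y.pt) := by
  rw [← Finset.prod_mul_prod_compl s.J, Finset.prod_eq_one, one_mul]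
  · refine Finset.prod_congr rfl fun l hl => ?_
    cases h1 : A.la l with
    | none => simp [co, h1, zt]
    | some b =>
      obtain ⟨a, rfl⟩ := s.en.mem A.inj (Finset.mem_compl.1 hl) h1
      rw [s.co_iff.2 h1]
      rfl
  · intro l hl
    rw [Option.eq_none_iff_forall_ne_some.2 fun a e => s.en.ne hl a (s.co_iff.1 e)]
    rfl

end Sl

theorem co_trans {e e' : Chart n V.X} (h : Co n e) (h' : Co n e') {x : V.X} (hx : x ∈ e.source)
    (hx' : x ∈ e'.source) : AnalyticAt ℂ (fun z => e' (e.symm z)) (e x) :=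
  analyticAt_pi_iff.2 fun a => h.an_hol (a := fun y => e' y a) (e.map_source hx)
    ((e.left_inv hx).symm ▸ (h'.an x hx').hol a)

theorem Sl.jac {A A' : Ac V D F} (s : Sl A m) (s' : Sl A' m) {y : Sr D n m}
    (h : y ∈ s.ch.source) (h' : y ∈ s'.ch.source) :
    jacM s.ch s'.ch y = (jacM A.ch A'.ch y.pt).submatrix s'.θ s.θ := by
  have h1 := co_trans A.co A'.co h.2 h'.2
  have h2 := s.ex_ch h
  let P : Cm n →L[ℂ] Cm m := ContinuousLinearMap.pi fun a => ContinuousLinearMap.proj (s'.θ a)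
  have h3 : (fun z => s'.ch (s.ch.symm z)) =ᶠ[𝓝 (s.ch y)]
      P ∘ (fun z => A'.ch (A.ch.symm z)) ∘ ex s.θ :=
    (s.pt_near (s.ch.map_source h)).mono fun z k => funext fun a => by
      change A'.ch (s.ch.symm z).pt _ = _
      rw [k]
      rfl
  have h4 := P.hasFDerivAt.comp _ ((h2.symm ▸ h1.differentiableAt.hasFDerivAt).comp (s.ch y)
    (ex s.θ).hasFDerivAt)
  ext a b
  change jmat (fun z => s'.ch (s.ch.symm z)) (s.ch y) a b =
    jmat (fun z => A'.ch (A.ch.symm z)) (A.ch y.pt) (s'.θ a) (s.θ b)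
  rw [jmat_congr h3, jmat_apply h4.differentiableAt, h4.fderiv, jmat_apply h1.differentiableAt,
    ← ex_single s.en.inj, ← h2]
  rfl

end Vale.Agent.P281Z.Ld
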